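import Mathlib

/-!
P190, Module 3 (SPREAD): ultraproducts of fields, of subspaces and of polynomials.
-/

open Filter

namespace Vale.Agent.P190

variable {ι : Type} (U : Ultrafilter ι) (F : ι → Type) [∀ i, Field (F i)]

/-- The families vanishing almost everywhere. -/
def nullIdeal : Ideal (∀ i, F i) where
  carrier := {a | ∀ᶠ i in (U : Filter ι), a i = 0}
  add_mem' := fun {a b} ha hb => by
    filter_upwards [ha, hb] with i h1 h2
    rw [Pi.add_apply, h1, h2, add_zero]
  zero_mem' := Eventually.of_forall fun i => rfl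
  smul_mem' := fun c a ha => by
    filter_upwards [ha] with i h
    rw [Pi.smul_apply', h, smul_zero]

lemma mem_nullIdeal {a : ∀ i, F i} : a ∈ nullIdeal U F ↔ ∀ᶠ i in (U : Filter ι), a i = 0 := Iff.rfl

instance nullIdeal_isMaximal : (nullIdeal U F).IsMaximal := by
  classical
  refine Ideal.isMaximal_iff.2 ⟨fun h => ?_, fun J a hJ ha haJ => ?_⟩
  · obtain ⟨i, hi⟩ := Eventually.exists (f := (U : Filter ι)) h
    exact one_ne_zero hi
  · have hne : ∀ᶠ i in (U : Filter ι), a i ≠ 0 := Ultrafilter.eventually_not.2 ha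
    let b : ∀ i, F i := fun i => (a i)⁻¹
    have h1 : b * a ∈ J := J.mul_mem_left b haJ
    have h2 : 1 - b * a ∈ J := hJ <| by
      rw [mem_nullIdeal]
      filter_upwards [hne] with i hi
      simp [b, hi]
    simpa using J.add_mem h2 h1

/-- The ultraproduct. -/
def Ultra : Type := (∀ i, F i) ⧸ nullIdeal U F

noncomputable instance instFieldUltra : Field (Ultra U F) :=
  letI := Ideal.Quotient.field (nullIdeal U F)
  inferInstanceAs (Field ((∀ i, F i) ⧸ nullIdeal U F))

namespace Ultra

variable {U F}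

/-- The class of a family. -/
def mk (a : ∀ i, F i) : Ultra U F := Ideal.Quotient.mk _ a

lemma mk_surjective : Function.Surjective (mk : (∀ i, F i) → Ultra U F) :=
  Ideal.Quotient.mk_surjective

lemma mk_eq_mk {a b : ∀ i, F i} :
    (mk a : Ultra U F) = mk b ↔ ∀ᶠ i in (U : Filter ι), a i = b i := by
  refine (Ideal.Quotient.mk_eq_mk_iff_sub_mem (I := nullIdeal U F) a b).trans ?_
  simp [mem_nullIdeal, sub_eq_zero]

lemma mk_eq_zero {a : ∀ i, F i} :
    (mk a : Ultra U F) = 0 ↔ ∀ᶠ i in (U : Filter ι), a i = 0 :=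
  (Ideal.Quotient.eq_zero_iff_mem (I := nullIdeal U F) (a := a))

lemma mk_add (a b : ∀ i, F i) : (mk (fun i => a i + b i) : Ultra U F) = mk a + mk b := rfl

lemma mk_mul (a b : ∀ i, F i) : (mk (fun i => a i * b i) : Ultra U F) = mk a * mk b := rfl

lemma mk_one : (mk (fun _ => 1) : Ultra U F) = 1 := rfl

lemma mk_zero : (mk (fun _ => 0) : Ultra U F) = 0 := rfl

lemma mk_sum {κ : Type*} (t : Finset κ) (a : κ → ∀ i, F i) :
    (mk (fun i => ∑ j ∈ t, a j i) : Ultra U F) = ∑ j ∈ t, mk (a j) := by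
  have h : (fun i => ∑ j ∈ t, a j i) = ∑ j ∈ t, a j := by ext i; rw [Finset.sum_apply]
  rw [h]
  exact map_sum (Ideal.Quotient.mk (nullIdeal U F)) a t

variable {E : ι → Type} [∀ i, Field (E i)] [∀ i, Algebra (F i) (E i)]

/-- The inclusion of the scalars. -/
noncomputable def scalar : Ultra U F →+* Ultra U E :=
  Ideal.Quotient.lift _
    ((Ideal.Quotient.mk _).comp
      (RingHom.pi fun i => (algebraMap (F i) (E i)).comp (Pi.evalRingHom F i)))
    fun a ha => by
      refine (Ideal.Quotient.eq_zero_iff_mem (I := nullIdeal U E)).2 ?_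
      rw [mem_nullIdeal]
      filter_upwards [(mem_nullIdeal U F).1 ha] with i hi
      show algebraMap (F i) (E i) (a i) = 0
      rw [hi, map_zero]

noncomputable instance instAlgebraUltra : Algebra (Ultra U F) (Ultra U E) := scalar.toAlgebra

lemma algebraMap_mk (c : ∀ i, F i) :
    algebraMap (Ultra U F) (Ultra U E) (mk c) = mk fun i => algebraMap (F i) (E i) (c i) := rfl

lemma mk_smul (c : ∀ i, F i) (a : ∀ i, E i) :
    (mk (fun i => c i • a i) : Ultra U E) = (mk c : Ultra U F) • mk a := by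
  rw [Algebra.smul_def, algebraMap_mk, ← mk_mul]
  exact congrArg mk (funext fun i => Algebra.smul_def _ _)

/-- The limit of a family of subspaces. -/
noncomputable def subspace (S : ∀ i, Submodule (F i) (E i)) :
    Submodule (Ultra U F) (Ultra U E) where
  carrier := {x | ∃ a : ∀ i, E i, (∀ᶠ i in (U : Filter ι), a i ∈ S i) ∧ mk a = x}
  add_mem' := by
    rintro _ _ ⟨a, ha, rfl⟩ ⟨b, hb, rfl⟩
    refine ⟨fun i => a i + b i, ?_, mk_add a b⟩
    filter_upwards [ha, hb] with i h1 h2 using add_mem h1 h2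
  zero_mem' := ⟨fun _ => 0, Eventually.of_forall fun i => zero_mem _, mk_zero⟩
  smul_mem' := by
    rintro c _ ⟨a, ha, rfl⟩
    obtain ⟨c, rfl⟩ := mk_surjective c
    refine ⟨fun i => c i • a i, ?_, mk_smul c a⟩
    filter_upwards [ha] with i h using Submodule.smul_mem _ _ h

lemma mem_subspace {S : ∀ i, Submodule (F i) (E i)} {x : Ultra U E} :
    x ∈ subspace S ↔ ∃ a : ∀ i, E i, (∀ᶠ i in (U : Filter ι), a i ∈ S i) ∧ mk a = x := Iff.rfl

lemma mk_mem_subspace {S : ∀ i, Submodule (F i) (E i)} {a : ∀ i, E i}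
    (h : ∀ᶠ i in (U : Filter ι), a i ∈ S i) : (mk a : Ultra U E) ∈ subspace S := ⟨a, h, rfl⟩

/-- A basis of the limit comes from bases of the terms. -/
theorem exists_basis (S : ∀ i, Submodule (F i) (E i)) (b : ℕ)
    (hS : ∀ᶠ i in (U : Filter ι), FiniteDimensional (F i) (S i) ∧ Module.finrank (F i) (S i) ≤ b) :
    ∃ (D : ℕ) (e : Fin D → ∀ i, E i),
      (∀ᶠ i in (U : Filter ι), (∀ j, e j i ∈ S i) ∧ LinearIndependent (F i) (fun j => e j i) ∧
        Submodule.span (F i) (Set.range fun j => e j i) = S i) ∧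
      LinearIndependent (Ultra U F) (fun j => (mk (e j) : Ultra U E)) ∧
      Submodule.span (Ultra U F) (Set.range fun j => (mk (e j) : Ultra U E)) = subspace S := by
  classical
  obtain ⟨D, hD⟩ : ∃ D, ∀ᶠ i in (U : Filter ι),
      FiniteDimensional (F i) (S i) ∧ Module.finrank (F i) (S i) = D := by
    have h : ∀ᶠ i in (U : Filter ι), ∃ D ∈ Set.Iic b,
        FiniteDimensional (F i) (S i) ∧ Module.finrank (F i) (S i) = D := by
      filter_upwards [hS] with i hi using ⟨_, hi.2, hi.1, rfl⟩
    obtain ⟨D, -, h⟩ := (Ultrafilter.eventually_exists_mem_iff (Set.finite_Iic b)).1 h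
    exact ⟨D, h⟩
  let e : Fin D → ∀ i, E i := fun j i =>
    if h : FiniteDimensional (F i) (S i) ∧ Module.finrank (F i) (S i) = D then
      haveI := h.1
      ((Module.finBasisOfFinrankEq (F i) (S i) h.2 j : S i) : E i)
    else 0
  have he : ∀ᶠ i in (U : Filter ι), (∀ j, e j i ∈ S i) ∧ LinearIndependent (F i) (fun j => e j i) ∧
      Submodule.span (F i) (Set.range fun j => e j i) = S i := by
    filter_upwards [hD] with i h
    haveI := h.1
    have heq : (fun j => e j i)
        = (S i).subtype ∘ Module.finBasisOfFinrankEq (F i) (S i) h.2 := by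
      ext j; simp [e, h]
    refine ⟨fun j => ?_, ?_, ?_⟩
    · rw [congrFun heq j]; exact SetLike.coe_mem _
    · rw [heq]
      exact (Module.finBasisOfFinrankEq (F i) (S i) h.2).linearIndependent.map' _
        (Submodule.ker_subtype _)
    · rw [heq, Set.range_comp, ← Submodule.map_span, Module.Basis.span_eq, Submodule.map_top,
        Submodule.range_subtype]
  refine ⟨D, e, he, ?_, le_antisymm ?_ ?_⟩
  · rw [Fintype.linearIndependent_iff]
    intro c hc
    choose c' hc' using fun j => mk_surjective (c j)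
    have h0 : (mk (fun i => ∑ j, c' j i • e j i) : Ultra U E) = 0 := by
      rw [mk_sum]
      simpa only [mk_smul, hc'] using hc
    intro j
    rw [← hc' j, mk_eq_zero]
    filter_upwards [mk_eq_zero.1 h0, he] with i hi hei
    exact Fintype.linearIndependent_iff.1 hei.2.1 _ hi j
  · rw [Submodule.span_le]
    rintro _ ⟨j, rfl⟩
    refine mk_mem_subspace ?_
    filter_upwards [he] with i hi using hi.1 j
  · rintro x ⟨a, ha, rfl⟩
    have hex : ∀ i, ∃ c : Fin D → F i,
        a i ∈ Submodule.span (F i) (Set.range fun j => e j i) → a i = ∑ j, c j • e j i := fun i => by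
      by_cases h : a i ∈ Submodule.span (F i) (Set.range fun j => e j i)
      · obtain ⟨c, hc⟩ := Submodule.mem_span_range_iff_exists_fun _ |>.1 h
        exact ⟨c, fun _ => hc.symm⟩
      · exact ⟨0, fun h' => absurd h' h⟩
    choose c hc using hex
    have h : (mk a : Ultra U E) = mk fun i => ∑ j, c i j • e j i := by
      rw [mk_eq_mk]
      filter_upwards [ha, he] with i hi hei
      exact hc i (hei.2.2.symm ▸ hi)
    rw [h, mk_sum]
    refine Submodule.sum_mem _ fun j _ => ?_
    rw [mk_smul]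
    exact Submodule.smul_mem _ _ (Submodule.subset_span ⟨j, rfl⟩)

/-! ### Polynomials -/

variable {σ : Type} [Fintype σ]

/-- A family of polynomials representing a polynomial over the ultraproduct. -/
def Rep (P : ∀ i, MvPolynomial σ (F i)) (Q : MvPolynomial σ (Ultra U F)) : Prop :=
  ∀ s, (mk (fun i => MvPolynomial.coeff s (P i)) : Ultra U F) = MvPolynomial.coeff s Q

lemma rep_zero : Rep (U := U) (fun i => (0 : MvPolynomial σ (F i))) 0 := fun s => by
  simp only [MvPolynomial.coeff_zero]; exact mk_zero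

lemma Rep.add {P P' : ∀ i, MvPolynomial σ (F i)} {Q Q' : MvPolynomial σ (Ultra U F)}
    (h : Rep P Q) (h' : Rep P' Q') : Rep (fun i => P i + P' i) (Q + Q') := fun s => by
  simp only [MvPolynomial.coeff_add]
  rw [mk_add, h s, h' s]

lemma Rep.smul {P : ∀ i, MvPolynomial σ (F i)} {Q : MvPolynomial σ (Ultra U F)}
    (h : Rep P Q) (c : ∀ i, F i) : Rep (fun i => c i • P i) ((mk c : Ultra U F) • Q) := fun s => by
  simp only [MvPolynomial.coeff_smul, smul_eq_mul]
  rw [mk_mul, h s]

lemma rep_sum {κ : Type*} (t : Finset κ) {P : κ → ∀ i, MvPolynomial σ (F i)}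
    {Q : κ → MvPolynomial σ (Ultra U F)} (h : ∀ j ∈ t, Rep (P j) (Q j)) :
    Rep (fun i => ∑ j ∈ t, P j i) (∑ j ∈ t, Q j) := fun s => by
  simp only [MvPolynomial.coeff_sum]
  rw [mk_sum]
  exact Finset.sum_congr rfl fun j hj => h j hj s

lemma Rep.mul {P P' : ∀ i, MvPolynomial σ (F i)} {Q Q' : MvPolynomial σ (Ultra U F)}
    (h : Rep P Q) (h' : Rep P' Q') : Rep (fun i => P i * P' i) (Q * Q') := fun s => by
  classical
  simp only [MvPolynomial.coeff_mul]
  rw [mk_sum]
  exact Finset.sum_congr rfl fun x _ => by rw [mk_mul, h x.1, h' x.2]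

lemma rep_X (t : σ) : Rep (U := U) (fun i => (MvPolynomial.X t : MvPolynomial σ (F i)))
    (MvPolynomial.X t) := fun s => by
  classical
  simp only [MvPolynomial.coeff_X']
  split_ifs
  · exact mk_one
  · exact mk_zero

lemma rep_one : Rep (U := U) (fun i => (1 : MvPolynomial σ (F i))) 1 := fun s => by
  classical
  simp only [MvPolynomial.coeff_one]
  split_ifs
  · exact mk_one
  · exact mk_zero

lemma Rep.sub {P P' : ∀ i, MvPolynomial σ (F i)} {Q Q' : MvPolynomial σ (Ultra U F)}
    (h : Rep P Q) (h' : Rep P' Q') : Rep (fun i => P i - P' i) (Q - Q') := fun s => by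
  simp only [MvPolynomial.coeff_sub]
  rw [← h s, ← h' s]
  rfl

lemma exists_rep (Q : MvPolynomial σ (Ultra U F)) :
    ∃ P : ∀ i, MvPolynomial σ (F i), Rep P Q := by
  classical
  choose c hc using fun s => mk_surjective (MvPolynomial.coeff s Q)
  refine ⟨fun i => ∑ s ∈ Q.support, MvPolynomial.monomial s (c s i), fun s => ?_⟩
  simp only [MvPolynomial.coeff_sum, MvPolynomial.coeff_monomial, Finset.sum_ite_eq']
  split_ifs with h
  · exact hc s
  · rw [MvPolynomial.notMem_support_iff.1 h]; exact mk_zero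

lemma Rep.eventually_small {P : ∀ i, MvPolynomial σ (F i)} {Q : MvPolynomial σ (Ultra U F)}
    (h : Rep P Q) (L : ℕ) (hQ : ∀ s : σ →₀ ℕ, (∑ t, s t) < L → MvPolynomial.coeff s Q = 0) :
    ∀ᶠ i in (U : Filter ι), ∀ s : σ →₀ ℕ, (∑ t, s t) < L → MvPolynomial.coeff s (P i) = 0 := by
  classical
  let T : Finset (σ →₀ ℕ) := (Finset.range L).biUnion fun n => Finset.finsuppAntidiag Finset.univ n
  have hT : ∀ s : σ →₀ ℕ, s ∈ T ↔ (∑ t, s t) < L := fun s => by
    simp [T, Finset.mem_finsuppAntidiag]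
  have hev : ∀ᶠ i in (U : Filter ι), ∀ s ∈ T, MvPolynomial.coeff s (P i) = 0 := by
    rw [Filter.eventually_all_finset]
    intro s hs
    exact mk_eq_zero.1 ((h s).trans (hQ s ((hT s).1 hs)))
  filter_upwards [hev] with i hi s hs using hi s ((hT s).2 hs)

end Ultra

end Vale.Agent.P190
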