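import Vale.Agent.P190.Spec
import Vale.Agent.P190.Spread.Ultra

/-!
P190, Module 3 (SPREAD): the limit ring of a family of cones and the transfer of approximate actions.
-/

open Filter

namespace Vale.Agent.P190

namespace Family

variable {d g b P₀ : ℕ} (Φ : Family d g b P₀)

/-- A nonprincipal ultrafilter on the primes. -/
noncomputable def ultra : Ultrafilter Nat.Primes := Filter.hyperfilter Nat.Primes

lemma eventually_ge (Q : ℕ) : ∀ᶠ p : Nat.Primes in (ultra : Filter Nat.Primes), Q ≤ (p : ℕ) := by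
  refine Filter.hyperfilter_le_cofinite ?_
  rw [Filter.mem_cofinite]
  refine ((Set.finite_lt_nat Q).preimage Subtype.val_injective.injOn).subset ?_
  intro p hp
  show (p : ℕ) < Q
  exact lt_of_not_ge hp

/-- The limit field of constants. -/
abbrev kLim : Type := Ultra ultra fbar

/-- The limit field. -/
abbrev KLim : Type := Ultra ultra Φ.K

instance kLim_charZero : CharZero kLim := by
  refine charZero_of_inj_zero fun n hn => ?_
  by_contra h
  have hn' : (Ultra.mk (fun p => (n : fbar p)) : kLim) = 0 := by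
    rw [← hn]; exact map_natCast (Ideal.Quotient.mk (nullIdeal ultra fbar)) n
  obtain ⟨p, hp, hge⟩ := ((Ultra.mk_eq_zero.1 hn').and (eventually_ge (n + 1))).exists
  have hdvd : (p : ℕ) ∣ n := (CharP.cast_eq_zero_iff (fbar p) (p : ℕ) n).1 hp
  have := Nat.le_of_dvd (Nat.pos_of_ne_zero h) hdvd
  omega

/-- The value of `η` at `p`. -/
noncomputable def eta (p : Nat.Primes) : Φ.K p :=
  if h : P₀ ≤ (p : ℕ) then (Φ.cone p h).η else 0

/-- The value of `ζ` at `p`. -/
noncomputable def zeta (p : Nat.Primes) : Φ.K p :=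
  if h : P₀ ≤ (p : ℕ) then (Φ.cone p h).ζ else 0

/-- The pieces at `p`. -/
noncomputable def piece (n : ℤ) (p : Nat.Primes) : Submodule (fbar p) (Φ.K p) :=
  if h : P₀ ≤ (p : ℕ) then (Φ.cone p h).R n else ⊥

lemma eta_eq {p : Nat.Primes} (h : P₀ ≤ (p : ℕ)) : Φ.eta p = (Φ.cone p h).η := dif_pos h

lemma zeta_eq {p : Nat.Primes} (h : P₀ ≤ (p : ℕ)) : Φ.zeta p = (Φ.cone p h).ζ := dif_pos h

lemma piece_eq {p : Nat.Primes} (h : P₀ ≤ (p : ℕ)) (n : ℤ) :
    Φ.piece n p = (Φ.cone p h).R n := dif_pos h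

lemma good (_Φ : Family d g b P₀) : ∀ᶠ p : Nat.Primes in (ultra : Filter Nat.Primes), P₀ ≤ (p : ℕ) :=
  eventually_ge P₀

lemma cone_mono {p : Nat.Primes} (h : P₀ ≤ (p : ℕ)) (n : ℤ) :
    (Φ.cone p h).R n ≤ (Φ.cone p h).R (n + 1) := fun a ha => by
  simpa using (Φ.cone p h).mul_mem n 1 a ha 1 (Φ.cone p h).one_mem

lemma cone_finrank {p : Nat.Primes} (h : P₀ ≤ (p : ℕ)) : ∀ n : ℤ,
    Module.finrank (fbar p) ((Φ.cone p h).R n) ≤ 3 ^ (n - g).toNat * b := by
  have hb := Φ.bound p h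
  have hg := Φ.g_eq p h
  have hfd := (Φ.cone p h).fd
  have up : ∀ m : ℕ, Module.finrank (fbar p) ((Φ.cone p h).R (g + m)) ≤ 3 ^ m * b := by
    intro m
    induction m with
    | zero => rw [Nat.cast_zero, add_zero, pow_zero, one_mul]; exact hb
    | succ m ih =>
      rw [Nat.cast_succ, ← add_assoc, (Φ.cone p h).gen _ (by rw [hg]; omega)]
      haveI := hfd (g + m)
      set W := (Φ.cone p h).R (g + m)
      calc Module.finrank (fbar p) ↥(W ⊔ W.map (LinearMap.mulLeft _ (Φ.cone p h).η)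
              ⊔ W.map (LinearMap.mulLeft _ (Φ.cone p h).ζ))
          ≤ Module.finrank (fbar p) W + Module.finrank (fbar p) W + Module.finrank (fbar p) W := by
            refine (Submodule.finrank_add_le_finrank_add_finrank _ _).trans ?_
            refine add_le_add ?_ (Submodule.finrank_map_le _ _)
            exact (Submodule.finrank_add_le_finrank_add_finrank _ _).trans
              (add_le_add le_rfl (Submodule.finrank_map_le _ _))
        _ ≤ 3 ^ (m + 1) * b := by rw [pow_succ]; linarith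
  have down : ∀ m : ℕ, (Φ.cone p h).R (g - m) ≤ (Φ.cone p h).R g := by
    intro m
    induction m with
    | zero => simp
    | succ m ih =>
      refine le_trans ?_ ih
      have := Φ.cone_mono h ((g : ℤ) - (m + 1 : ℕ))
      rwa [show (g : ℤ) - ((m + 1 : ℕ) : ℤ) + 1 = g - m by push_cast; ring] at this
  intro n
  rcases le_total (g : ℤ) n with hn | hn
  · obtain ⟨m, rfl⟩ : ∃ m : ℕ, n = g + m := ⟨(n - g).toNat, by omega⟩
    simpa using up m
  · obtain ⟨m, rfl⟩ : ∃ m : ℕ, n = g - m := ⟨(g - n).toNat, by omega⟩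
    haveI := hfd g
    rw [show ((g : ℤ) - m - g).toNat = 0 by omega, pow_zero, one_mul]
    exact (Submodule.finrank_mono (down m)).trans hb

lemma exists_piece_basis (n : ℤ) :
    ∃ (D : ℕ) (e : Fin D → ∀ p, Φ.K p),
      (∀ᶠ p in (ultra : Filter Nat.Primes), (∀ j, e j p ∈ Φ.piece n p) ∧
        LinearIndependent (fbar p) (fun j => e j p) ∧
        Submodule.span (fbar p) (Set.range fun j => e j p) = Φ.piece n p) ∧
      LinearIndependent kLim (fun j => (Ultra.mk (e j) : Φ.KLim)) ∧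
      Submodule.span kLim (Set.range fun j => (Ultra.mk (e j) : Φ.KLim))
        = Ultra.subspace (Φ.piece n) := by
  refine Ultra.exists_basis (Φ.piece n) (3 ^ (n - g).toNat * b) ?_
  filter_upwards [Φ.good] with p h
  rw [Φ.piece_eq h]
  exact ⟨(Φ.cone p h).fd n, Φ.cone_finrank h n⟩

/-- The limit ring. -/
noncomputable def limit : Ring3 kLim Φ.KLim where
  η := Ultra.mk Φ.eta
  ζ := Ultra.mk Φ.zeta
  R n := Ultra.subspace (Φ.piece n)
  g := g
  R_zero := by
    refine le_antisymm ?_ ?_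
    · rintro x ⟨a, ha, rfl⟩
      have hex : ∀ p : Nat.Primes, ∃ c : fbar p, (P₀ ≤ (p : ℕ) ∧ a p ∈ Φ.piece 0 p) → a p = c • 1 := by
        intro p
        by_cases h : P₀ ≤ (p : ℕ) ∧ a p ∈ Φ.piece 0 p
        · have h2 := h.2
          rw [Φ.piece_eq h.1, (Φ.cone p h.1).R_zero, Submodule.mem_span_singleton] at h2
          obtain ⟨c, hc⟩ := h2
          exact ⟨c, fun _ => hc.symm⟩
        · exact ⟨0, fun h' => absurd h' h⟩
      choose c hc using hex
      refine Submodule.mem_span_singleton.2 ⟨Ultra.mk c, ?_⟩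
      rw [← Ultra.mk_one (F := Φ.K), ← Ultra.mk_smul, Ultra.mk_eq_mk]
      filter_upwards [Φ.good, ha] with p h1 h2
      exact (hc p ⟨h1, h2⟩).symm
    · rw [Submodule.span_le, Set.singleton_subset_iff]
      refine ⟨fun _ => 1, ?_, Ultra.mk_one⟩
      filter_upwards [Φ.good] with p h
      rw [Φ.piece_eq h, (Φ.cone p h).R_zero]
      exact Submodule.mem_span_singleton_self 1
  R_neg := by
    intro n hn
    rw [eq_bot_iff]
    rintro x ⟨a, ha, rfl⟩
    rw [Submodule.mem_bot, Ultra.mk_eq_zero]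
    filter_upwards [Φ.good, ha] with p h1 h2
    rw [Φ.piece_eq h1, (Φ.cone p h1).R_neg n hn] at h2
    exact h2
  one_mem := ⟨fun _ => 1, by
    filter_upwards [Φ.good] with p h
    rw [Φ.piece_eq h]; exact (Φ.cone p h).one_mem, Ultra.mk_one⟩
  η_mem := ⟨Φ.eta, by
    filter_upwards [Φ.good] with p h
    rw [Φ.piece_eq h, Φ.eta_eq h]; exact (Φ.cone p h).η_mem, rfl⟩
  ζ_mem := ⟨Φ.zeta, by
    filter_upwards [Φ.good] with p h
    rw [Φ.piece_eq h, Φ.zeta_eq h]; exact (Φ.cone p h).ζ_mem, rfl⟩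
  mul_mem := by
    rintro m n _ ⟨a, ha, rfl⟩ _ ⟨c, hc, rfl⟩
    refine ⟨fun p => a p * c p, ?_, Ultra.mk_mul a c⟩
    filter_upwards [Φ.good, ha, hc] with p h h1 h2
    rw [Φ.piece_eq h] at h1 h2 ⊢
    exact (Φ.cone p h).mul_mem m n _ h1 _ h2
  fd n := by
    obtain ⟨D, e, -, -, hspan⟩ := Φ.exists_piece_basis n
    rw [← hspan]
    exact FiniteDimensional.span_of_finite _ (Set.finite_range _)
  gen := by
    intro n hn
    refine le_antisymm ?_ ?_
    · rintro x ⟨a, ha, rfl⟩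
      have hex : ∀ p : Nat.Primes, ∃ u v w : Φ.K p, (P₀ ≤ (p : ℕ) ∧ a p ∈ Φ.piece (n + 1) p) →
          u ∈ Φ.piece n p ∧ v ∈ Φ.piece n p ∧ w ∈ Φ.piece n p ∧
            a p = u + Φ.eta p * v + Φ.zeta p * w := by
        intro p
        by_cases h : P₀ ≤ (p : ℕ) ∧ a p ∈ Φ.piece (n + 1) p
        · have h2 := h.2
          rw [Φ.piece_eq h.1, (Φ.cone p h.1).gen n (by rw [Φ.g_eq]; exact hn)] at h2
          obtain ⟨uv, huv, w', hw', hsum⟩ := Submodule.mem_sup.1 h2
          obtain ⟨u, hu, v', hv', hsum'⟩ := Submodule.mem_sup.1 huv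
          obtain ⟨v, hv, rfl⟩ := hv'
          obtain ⟨w, hw, rfl⟩ := hw'
          refine ⟨u, v, w, fun _ => ?_⟩
          rw [Φ.piece_eq h.1, Φ.eta_eq h.1, Φ.zeta_eq h.1]
          exact ⟨hu, hv, hw, hsum.symm.trans (congrArg (· + _) hsum'.symm)⟩
        · exact ⟨0, 0, 0, fun h' => absurd h' h⟩
      choose u v w huvw using hex
      have hev : ∀ᶠ p in (ultra : Filter Nat.Primes), u p ∈ Φ.piece n p ∧ v p ∈ Φ.piece n p ∧
          w p ∈ Φ.piece n p ∧ a p = u p + Φ.eta p * v p + Φ.zeta p * w p := by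
        filter_upwards [Φ.good, ha] with p h1 h2 using huvw p ⟨h1, h2⟩
      have heq : (Ultra.mk a : Φ.KLim) = Ultra.mk u + Ultra.mk Φ.eta * Ultra.mk v
          + Ultra.mk Φ.zeta * Ultra.mk w := by
        rw [← Ultra.mk_mul, ← Ultra.mk_mul, ← Ultra.mk_add, ← Ultra.mk_add, Ultra.mk_eq_mk]
        filter_upwards [hev] with p hp using hp.2.2.2
      rw [heq]
      refine Submodule.add_mem_sup (Submodule.add_mem_sup ?_ ⟨Ultra.mk v, ?_, rfl⟩)
        ⟨Ultra.mk w, ?_, rfl⟩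
      · exact ⟨u, hev.mono fun p hp => hp.1, rfl⟩
      · exact ⟨v, hev.mono fun p hp => hp.2.1, rfl⟩
      · exact ⟨w, hev.mono fun p hp => hp.2.2.1, rfl⟩
    · refine sup_le (sup_le ?_ ?_) ?_
      · rintro x ⟨a, ha, rfl⟩
        refine ⟨a, ?_, rfl⟩
        filter_upwards [Φ.good, ha] with p h h1
        rw [Φ.piece_eq h] at h1 ⊢
        exact Φ.cone_mono h n h1
      · rintro x ⟨y, ⟨a, ha, rfl⟩, rfl⟩
        refine ⟨fun p => Φ.eta p * a p, ?_, Ultra.mk_mul _ _⟩
        filter_upwards [Φ.good, ha] with p h h1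
        rw [Φ.piece_eq h] at h1 ⊢
        rw [Φ.eta_eq h, add_comm n 1]
        exact (Φ.cone p h).mul_mem 1 n _ (Φ.cone p h).η_mem _ h1
      · rintro x ⟨y, ⟨a, ha, rfl⟩, rfl⟩
        refine ⟨fun p => Φ.zeta p * a p, ?_, Ultra.mk_mul _ _⟩
        filter_upwards [Φ.good, ha] with p h h1
        rw [Φ.piece_eq h] at h1 ⊢
        rw [Φ.zeta_eq h, add_comm n 1]
        exact (Φ.cone p h).mul_mem 1 n _ (Φ.cone p h).ζ_mem _ h1
  indep := by
    classical
    rw [algebraicIndependent_iff]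
    intro Q hQ
    obtain ⟨T, hT⟩ : ∃ T : Finset (Fin 2 →₀ ℕ), T = Q.support := ⟨_, rfl⟩
    choose c hc using fun s => Ultra.mk_surjective (MvPolynomial.coeff s Q)
    have hval : (Ultra.mk (fun p => ∑ s ∈ T,
        c s p • (Φ.eta p ^ s 0 * Φ.zeta p ^ s 1)) : Φ.KLim) = 0 := by
      rw [Ultra.mk_sum, ← hQ]
      conv_rhs => rw [Q.as_sum]
      rw [map_sum, hT]
      refine Finset.sum_congr rfl fun s _ => ?_
      rw [Ultra.mk_smul, hc, MvPolynomial.aeval_monomial,
        Finsupp.prod_fintype _ _ (fun i => pow_zero _), Fin.prod_univ_two, Algebra.smul_def]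
      congr 1
    have hev : ∀ᶠ p in (ultra : Filter Nat.Primes), ∀ s ∈ T, c s p = 0 := by
      filter_upwards [Φ.good, Ultra.mk_eq_zero.1 hval] with p h hp s hs
      let Qp : MvPolynomial (Fin 2) (fbar p) := ∑ s ∈ T, MvPolynomial.monomial s (c s p)
      have h0 : MvPolynomial.aeval ![(Φ.cone p h).η, (Φ.cone p h).ζ] Qp = 0 := by
        rw [← hp, map_sum]
        refine Finset.sum_congr rfl fun s _ => ?_
        rw [MvPolynomial.aeval_monomial, Finsupp.prod_fintype _ _ (fun i => pow_zero _),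
          Fin.prod_univ_two, Algebra.smul_def, Φ.eta_eq h, Φ.zeta_eq h]
        rfl
      have hQp : Qp = 0 := (Φ.cone p h).indep (by rw [h0, map_zero])
      have := congrArg (MvPolynomial.coeff s) hQp
      simpa [Qp, MvPolynomial.coeff_sum, MvPolynomial.coeff_monomial, hs] using this
    ext s
    rw [MvPolynomial.coeff_zero]
    by_cases hs : s ∈ T
    · rw [← hc s, Ultra.mk_eq_zero]
      filter_upwards [hev] with p hp using hp s hs
    · exact MvPolynomial.notMem_support_iff.1 (hT ▸ hs)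

/-! ### Transfer of approximate actions -/

variable {r : ℕ}

/-- An action in degree `n` comes from linear maps at the primes. -/
lemma exists_transfer (n : ℕ)
    (A : Φ.limit.R n →ₗ[kLim] Matrix (Fin r) (Fin r) (MvPolynomial (Fin 3) kLim)) :
    ∃ B : ∀ p, Φ.piece (n : ℤ) p →ₗ[fbar p] Matrix (Fin r) (Fin r) (MvPolynomial (Fin 3) (fbar p)),
      ∀ (v : ∀ p, Φ.piece (n : ℤ) p) (x : Φ.limit.R n),
        (x : Φ.KLim) = Ultra.mk (fun p => (v p : Φ.K p)) →
        ∀ i j, Ultra.Rep (fun p => B p (v p) i j) (A x i j) := by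
  classical
  obtain ⟨D, e, he, hli, hspan⟩ := Φ.exists_piece_basis (n : ℤ)
  have hmem : ∀ l, (Ultra.mk (e l) : Φ.KLim) ∈ Φ.limit.R n := fun l => by
    show _ ∈ Ultra.subspace (Φ.piece (n : ℤ))
    rw [← hspan]; exact Submodule.subset_span ⟨l, rfl⟩
  choose P hP using fun l i j => Ultra.exists_rep (A ⟨_, hmem l⟩ i j)
  let good' : Nat.Primes → Prop := fun p => (∀ j, e j p ∈ Φ.piece (n : ℤ) p) ∧
    LinearIndependent (fbar p) (fun j => e j p) ∧
    Submodule.span (fbar p) (Set.range fun j => e j p) = Φ.piece (n : ℤ) p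
  have hB : ∀ p, ∃ B : Φ.piece (n : ℤ) p →ₗ[fbar p]
      Matrix (Fin r) (Fin r) (MvPolynomial (Fin 3) (fbar p)),
      good' p → ∀ (v : Φ.piece (n : ℤ) p) (c : Fin D → fbar p), (v : Φ.K p) = ∑ l, c l • e l p →
        B v = ∑ l, c l • Matrix.of fun i j => P l i j p := by
    intro p
    by_cases h : good' p
    · obtain ⟨h1, h2, h3⟩ := h
      let f : Fin D → Φ.piece (n : ℤ) p := fun l => ⟨e l p, h1 l⟩
      have hf : LinearIndependent (fbar p) f :=
        LinearIndependent.of_comp (Φ.piece (n : ℤ) p).subtype h2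
      have hfs : ⊤ ≤ Submodule.span (fbar p) (Set.range f) := by
        refine (Submodule.map_le_map_iff_of_injective
          (Submodule.injective_subtype (Φ.piece (n : ℤ) p)) _ _).1 ?_
        rw [Submodule.map_top, Submodule.range_subtype, Submodule.map_span, ← Set.range_comp]
        exact h3.ge
      let bas := Module.Basis.mk hf hfs
      refine ⟨bas.constr (fbar p) fun l => Matrix.of fun i j => P l i j p, fun _ v c hv => ?_⟩
      have hv' : v = ∑ l, c l • bas l := by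
        refine Subtype.ext ?_
        rw [hv]
        simp [bas, Module.Basis.coe_mk, f]
      rw [hv', map_sum]
      refine Finset.sum_congr rfl fun l _ => ?_
      rw [map_smul, Module.Basis.constr_basis]
    · exact ⟨0, fun h' => absurd h' h⟩
  choose B hB using hB
  refine ⟨B, fun v x hx i j => ?_⟩
  have hex : ∀ p, ∃ c : Fin D → fbar p, good' p → (v p : Φ.K p) = ∑ l, c l • e l p := by
    intro p
    by_cases h : good' p
    · obtain ⟨c, hc⟩ := (Submodule.mem_span_range_iff_exists_fun _).1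
        ((SetLike.ext_iff.1 h.2.2 _).2 (v p).2)
      exact ⟨c, fun _ => hc.symm⟩
    · exact ⟨0, fun h' => absurd h' h⟩
  choose c hc using hex
  letI instM : Module kLim Φ.KLim := Algebra.toModule
  have hx' : x = ∑ l, (Ultra.mk (fun p => c p l) : kLim) •
      (⟨(Ultra.mk (e l) : Φ.KLim), hmem l⟩ : ↥(Φ.limit.R (n : ℤ))) := by
    refine Subtype.ext ?_
    rw [hx, AddSubmonoidClass.coe_finsetSum]
    show _ = ∑ l, (Ultra.mk (fun p => c p l) : kLim) • (Ultra.mk (e l) : Φ.KLim)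
    simp only [← Ultra.mk_smul, ← Ultra.mk_sum]
    rw [Ultra.mk_eq_mk]
    filter_upwards [he] with p hp using hc p hp
  have hR : Ultra.Rep (fun p => ∑ l, c p l • P l i j p) (A x i j) := by
    rw [hx', map_sum, Matrix.sum_apply]
    simp only [map_smul, Matrix.smul_apply]
    exact Ultra.rep_sum _ fun l _ => (hP l i j).smul _
  intro s
  rw [← hR s, Ultra.mk_eq_mk]
  filter_upwards [he] with p hp
  rw [hB p hp (v p) (c p) (hc p hp), Matrix.sum_apply]
  rfl

end Family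

theorem spreadModule : SpreadModule := by
  classical
  intro d g b P₀ Φ
  refine ⟨Family.kLim, Φ.KLim, inferInstance, inferInstance, inferInstance, inferInstance,
    Φ.limit, ?_⟩
  intro r L hall Q
  obtain ⟨A, h0, h1, hη, hζ, hmul⟩ := hall L
  choose B hB using fun n : ℕ => Φ.exists_transfer n (A n)
  let U : Filter Nat.Primes := (Family.ultra : Filter Nat.Primes)
  -- transfer of a single small combination
  have small : ∀ {P : ∀ p, Matrix (Fin r) (Fin r) (MvPolynomial (Fin 3) (fbar p))}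
      {M : Matrix (Fin r) (Fin r) (MvPolynomial (Fin 3) Family.kLim)},
      (∀ i j, Ultra.Rep (fun p => P p i j) (M i j)) → Ring3.IsSmall (k := Family.kLim) L M →
        ∀ᶠ p in U, Ring3.IsSmall (k := fbar p) L (P p) := by
    intro P M hP hM
    have : ∀ᶠ p in U, ∀ i : Fin r, ∀ j : Fin r, ∀ s : Fin 3 →₀ ℕ, (∑ t, s t) < L →
        MvPolynomial.coeff s (P p i j) = 0 := by
      rw [Filter.eventually_all]
      intro i
      rw [Filter.eventually_all]
      exact fun j => (hP i j).eventually_small L (hM i j)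
    exact this
  have fam : ∀ (n : ℕ) (a : ∀ p, Φ.K p), (∀ᶠ p in U, a p ∈ Φ.piece (n : ℤ) p) →
      ∃ v : ∀ p, Φ.piece (n : ℤ) p, ∀ᶠ p in U, (v p : Φ.K p) = a p := by
    intro n a ha
    refine ⟨fun p => if h : a p ∈ Φ.piece (n : ℤ) p then ⟨a p, h⟩ else 0, ?_⟩
    filter_upwards [ha] with p hp
    simp [hp]
  have scalarSmall : ∀ (a : ∀ p, Φ.K p) (x : Φ.limit.R ((1 : ℕ) : ℤ)) (t : Fin 3),
      (x : Φ.KLim) = Ultra.mk a → (∀ᶠ p in U, a p ∈ Φ.piece ((1 : ℕ) : ℤ) p) →
      Ring3.IsSmall (k := Family.kLim) L (A 1 x - (MvPolynomial.X t : MvPolynomial (Fin 3) Family.kLim)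
        • (1 : Matrix (Fin r) (Fin r) (MvPolynomial (Fin 3) Family.kLim))) →
      ∀ᶠ p in U, ∀ w : Φ.piece ((1 : ℕ) : ℤ) p, (w : Φ.K p) = a p →
        Ring3.IsSmall (k := fbar p) L (B 1 p w - (MvPolynomial.X t : MvPolynomial (Fin 3) (fbar p))
          • (1 : Matrix (Fin r) (Fin r) (MvPolynomial (Fin 3) (fbar p)))) := by
    intro a x t hxa ha hs
    obtain ⟨v, hv⟩ := fam 1 a ha
    have hx : (x : Φ.KLim) = Ultra.mk (fun p => (v p : Φ.K p)) := by
      rw [hxa, Ultra.mk_eq_mk]; filter_upwards [hv] with p hp using hp.symm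
    have hrep : ∀ i j, Ultra.Rep
        (fun p => (B 1 p (v p) - (MvPolynomial.X t : MvPolynomial (Fin 3) (fbar p))
          • (1 : Matrix (Fin r) (Fin r) (MvPolynomial (Fin 3) (fbar p)))) i j)
        ((A 1 x - (MvPolynomial.X t : MvPolynomial (Fin 3) Family.kLim)
          • (1 : Matrix (Fin r) (Fin r) (MvPolynomial (Fin 3) Family.kLim))) i j) := by
      intro i j
      simp only [Matrix.sub_apply, Matrix.smul_apply, smul_eq_mul]
      refine (hB 1 v x hx i j).sub ?_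
      by_cases hij : i = j
      · subst hij; simpa using Ultra.rep_X t
      · simpa [Matrix.one_apply_ne hij] using Ultra.rep_zero
    filter_upwards [small hrep hs, hv] with p hp hvp w hw
    rwa [show w = v p from Subtype.ext (hw.trans hvp.symm)]
  have e1 : ∀ᶠ p in U, (fun _ => 1 : ∀ p, Φ.K p) p ∈ Φ.piece ((1 : ℕ) : ℤ) p := by
    filter_upwards [Φ.good] with p h
    rw [Φ.piece_eq h]; exact_mod_cast (Φ.cone p h).one_mem
  have eη : ∀ᶠ p in U, Φ.eta p ∈ Φ.piece ((1 : ℕ) : ℤ) p := by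
    filter_upwards [Φ.good] with p h
    rw [Φ.piece_eq h, Φ.eta_eq h]; exact_mod_cast (Φ.cone p h).η_mem
  have eζ : ∀ᶠ p in U, Φ.zeta p ∈ Φ.piece ((1 : ℕ) : ℤ) p := by
    filter_upwards [Φ.good] with p h
    rw [Φ.piece_eq h, Φ.zeta_eq h]; exact_mod_cast (Φ.cone p h).ζ_mem
  have c1 := scalarSmall (fun _ => 1) ⟨1, by exact_mod_cast Φ.limit.one_mem⟩ 0 Ultra.mk_one.symm e1 h1
  have cη := scalarSmall Φ.eta ⟨Φ.limit.η, by exact_mod_cast Φ.limit.η_mem⟩ 1 rfl eη hη
  have cζ := scalarSmall Φ.zeta ⟨Φ.limit.ζ, by exact_mod_cast Φ.limit.ζ_mem⟩ 2 rfl eζ hζ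
  have c0 : ∀ᶠ p in U, ∀ w : Φ.piece ((0 : ℕ) : ℤ) p, (w : Φ.K p) = 1 →
      Ring3.IsSmall (k := fbar p) L (B 0 p w - 1) := by
    have ha : ∀ᶠ p in U, (fun _ => 1 : ∀ p, Φ.K p) p ∈ Φ.piece ((0 : ℕ) : ℤ) p := by
      filter_upwards [Φ.good] with p h
      rw [Φ.piece_eq h, Nat.cast_zero, (Φ.cone p h).R_zero]
      exact Submodule.mem_span_singleton_self 1
    obtain ⟨v, hv⟩ := fam 0 (fun _ => 1) ha
    have hmem : (1 : Φ.KLim) ∈ Φ.limit.R ((0 : ℕ) : ℤ) := ⟨fun _ => 1, ha, Ultra.mk_one⟩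
    have hx : (1 : Φ.KLim) = Ultra.mk (fun p => (v p : Φ.K p)) := by
      rw [← Ultra.mk_one, Ultra.mk_eq_mk]; filter_upwards [hv] with p hp using hp.symm
    have hrep : ∀ i j, Ultra.Rep
        (fun p => (B 0 p (v p) - (1 : Matrix (Fin r) (Fin r) (MvPolynomial (Fin 3) (fbar p)))) i j)
        ((A 0 ⟨1, hmem⟩ - (1 : Matrix (Fin r) (Fin r) (MvPolynomial (Fin 3) Family.kLim))) i j) := by
      intro i j
      simp only [Matrix.sub_apply]
      refine (hB 0 v ⟨1, hmem⟩ hx i j).sub ?_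
      by_cases hij : i = j
      · subst hij; simpa using Ultra.rep_one
      · simpa [Matrix.one_apply_ne hij] using Ultra.rep_zero
    filter_upwards [small hrep (h0 hmem), hv] with p hp hvp w hw
    rwa [show w = v p from Subtype.ext (hw.trans hvp.symm)]
  have cmul : ∀ m n : ℕ, m + n ≤ L → ∀ᶠ p in U, ∀ (a : Φ.piece (m : ℤ) p) (c : Φ.piece (n : ℤ) p)
      (h : (a : Φ.K p) * c ∈ Φ.piece ((m + n : ℕ) : ℤ) p),
      Ring3.IsSmall (k := fbar p) L (B (m + n) p ⟨_, h⟩ - B m p a * B n p c) := by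
    intro m n hmn
    by_contra hcon
    rw [← Ultrafilter.eventually_not] at hcon
    have hex : ∀ p, ∃ (a : Φ.piece (m : ℤ) p) (c : Φ.piece (n : ℤ) p)
        (w : Φ.piece ((m + n : ℕ) : ℤ) p),
        (¬ ∀ (a : Φ.piece (m : ℤ) p) (c : Φ.piece (n : ℤ) p)
          (h : (a : Φ.K p) * c ∈ Φ.piece ((m + n : ℕ) : ℤ) p),
          Ring3.IsSmall (k := fbar p) L (B (m + n) p ⟨_, h⟩ - B m p a * B n p c)) →
        (w : Φ.K p) = a * c ∧
          ¬ Ring3.IsSmall (k := fbar p) L (B (m + n) p w - B m p a * B n p c) := by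
      intro p
      by_cases h : ∀ (a : Φ.piece (m : ℤ) p) (c : Φ.piece (n : ℤ) p)
          (h : (a : Φ.K p) * c ∈ Φ.piece ((m + n : ℕ) : ℤ) p),
          Ring3.IsSmall (k := fbar p) L (B (m + n) p ⟨_, h⟩ - B m p a * B n p c)
      · exact ⟨0, 0, 0, fun h' => absurd h h'⟩
      · push Not at h
        obtain ⟨a, c, hac, hns⟩ := h
        exact ⟨a, c, ⟨_, hac⟩, fun _ => ⟨rfl, hns⟩⟩
    choose a c w hw using hex
    have ha : (Ultra.mk (fun p => (a p : Φ.K p)) : Φ.KLim) ∈ Φ.limit.R (m : ℤ) :=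
      ⟨_, Eventually.of_forall fun p => (a p).2, rfl⟩
    have hc : (Ultra.mk (fun p => (c p : Φ.K p)) : Φ.KLim) ∈ Φ.limit.R (n : ℤ) :=
      ⟨_, Eventually.of_forall fun p => (c p).2, rfl⟩
    have heq : (Ultra.mk (fun p => (w p : Φ.K p)) : Φ.KLim)
        = Ultra.mk (fun p => (a p : Φ.K p)) * Ultra.mk (fun p => (c p : Φ.K p)) := by
      rw [← Ultra.mk_mul, Ultra.mk_eq_mk]
      filter_upwards [hcon] with p hp using (hw p hp).1
    have hprod : (Ultra.mk (fun p => (a p : Φ.K p)) : Φ.KLim) * Ultra.mk (fun p => (c p : Φ.K p))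
        ∈ Φ.limit.R ((m + n : ℕ) : ℤ) :=
      heq ▸ ⟨_, Eventually.of_forall fun p => (w p).2, rfl⟩
    have hs := hmul m n hmn ⟨_, ha⟩ ⟨_, hc⟩ hprod
    have hrep : ∀ i j, Ultra.Rep
        (fun p => (B (m + n) p (w p) - B m p (a p) * B n p (c p)) i j)
        ((A (m + n) ⟨_, hprod⟩ - A m ⟨_, ha⟩ * A n ⟨_, hc⟩) i j) := by
      intro i j
      simp only [Matrix.sub_apply, Matrix.mul_apply]
      exact (hB (m + n) w ⟨_, hprod⟩ heq.symm i j).sub
        (Ultra.rep_sum _ fun l _ => (hB m a ⟨_, ha⟩ rfl i l).mul (hB n c ⟨_, hc⟩ rfl l j))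
    obtain ⟨p, hp, hp'⟩ := ((small hrep hs).and hcon).exists
    exact (hw p hp').2 hp
  have call : ∀ᶠ p in U, ∀ m ∈ Finset.range (L + 1), ∀ n ∈ Finset.range (L + 1), m + n ≤ L →
      ∀ (a : Φ.piece (m : ℤ) p) (c : Φ.piece (n : ℤ) p)
      (h : (a : Φ.K p) * c ∈ Φ.piece ((m + n : ℕ) : ℤ) p),
      Ring3.IsSmall (k := fbar p) L (B (m + n) p ⟨_, h⟩ - B m p a * B n p c) := by
    rw [Filter.eventually_all_finset]
    intro m _
    rw [Filter.eventually_all_finset]
    intro n _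
    by_cases h : m + n ≤ L
    · filter_upwards [cmul m n h] with p hp using fun _ => hp
    · exact Eventually.of_forall fun p h' => absurd h' h
  obtain ⟨p, hP₀, hQ, k1, kη, kζ, k0, kmul⟩ := (Φ.good.and ((Family.eventually_ge Q).and
    (c1.and (cη.and (cζ.and (c0.and call)))))).exists
  refine ⟨p, hP₀, hQ, fun n => (B n p).comp
    (LinearEquiv.ofEq _ _ (Φ.piece_eq hP₀ (n : ℤ)).symm).toLinearMap, ?_, ?_, ?_, ?_, ?_⟩
  · intro h
    exact k0 _ rfl
  · exact k1 _ rfl
  · exact kη _ (Φ.eta_eq hP₀).symm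
  · exact kζ _ (Φ.zeta_eq hP₀).symm
  · intro m n hmn a c h
    exact kmul m (Finset.mem_range.2 (by omega)) n (Finset.mem_range.2 (by omega)) hmn _ _
      (by rw [Φ.piece_eq hP₀]; exact h)

end Vale.Agent.P190
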